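import Vale.Agent.P199.LocalFinite
import Vale.Agent.P199.Bounded

/-!
# Kurosh's problem for division rings: criteria in terms of separable subfields and the centre
-/

namespace Vale.Agent.Results.P199.GaloisCriteria

open Vale.Agent.P199

universe u v

theorem result :
    (∀ (F : Type u) (D : Type v) [Field F] [DivisionRing D] [Algebra F D]
      [Algebra.IsAlgebraic F D] (S : Finset D) (d : ℕ),
      (∀ a ∈ Algebra.adjoin F (S : Set D), IsSeparable F a → (minpoly F a).natDegree ≤ d) →
      FiniteDimensional F (Algebra.adjoin F (S : Set D))) ∧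
    (∀ (F : Type u) (D : Type v) [Field F] [DivisionRing D] [Algebra F D]
      [Algebra.IsAlgebraic F D] [Algebra.IsCentral F D] (d : ℕ),
      (∀ a : D, IsSeparable F a → (minpoly F a).natDegree ≤ d) →
      FiniteDimensional F D ∧ Module.finrank F D ≤ d ^ 2) ∧
    (∀ (F : Type u) [Field F], AutRich F →
      ∀ (D : Type u) [DivisionRing D] [Algebra F D] [Algebra.IsAlgebraic F D]
        [Algebra.IsCentral F D], ¬ FiniteDimensional F D →
      ∀ N : ℕ, ∃ A : Subalgebra F D, FiniteDimensional F A ∧
        N * Module.finrank F (Subalgebra.center F A) < Module.finrank F A) ∧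
    (∀ (F : Type u) [Field F], AutRich F → ∀ N : ℕ,
      (∀ (E : Type u) [Field E] [Algebra F E] [FiniteDimensional F E]
        (Δ : Type u) [DivisionRing Δ] [Algebra E Δ] [FiniteDimensional E Δ]
        [Algebra.IsCentral E Δ], Module.finrank E Δ ≤ N) →
      ∀ (D : Type u) [DivisionRing D] [Algebra F D] [Algebra.IsAlgebraic F D]
        [Algebra.IsCentral F D], FiniteDimensional F D) ∧
    (∀ (F : Type u) [Field F] [Finite F], AutRich F) := by
  have key : ∀ (F : Type u) [Field F], AutRich F →
      ∀ (D : Type u) [DivisionRing D] [Algebra F D] [Algebra.IsAlgebraic F D]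
        [Algebra.IsCentral F D], ¬ FiniteDimensional F D →
      ∀ N : ℕ, ∃ A : Subalgebra F D, FiniteDimensional F A ∧
        N * Module.finrank F (Subalgebra.center F A) < Module.finrank F A := by
    intro F _ hF D _ _ _ _ hD N
    obtain ⟨A, hA, h⟩ := unbounded_index hF central_of_isCentral hD N
    have : Module.Finite F (Subalgebra.center F A) :=
      FiniteDimensional.of_injective (Subalgebra.center F A).val.toLinearMap Subtype.val_injective
    have : 0 < Module.finrank F (Subalgebra.center F A) := Module.finrank_pos
    exact ⟨A, hA, by rw [add_mul, one_mul] at h; omega⟩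
  refine ⟨fun F D _ _ _ _ S d hd => adjoin_finite_of_sepBounded S hd, ?_, key, ?_,
    fun F _ _ => autRich_of_finite F⟩
  · intro F D _ _ _ _ hc d hd
    exact finite_of_sepBounded (fun z hz =>
      hc.out (Subalgebra.mem_center_iff.mpr fun x => (hz x).symm)) hd
  · intro F _ hF N hN D _ _ _ _
    by_contra hD
    obtain ⟨A, hA, h⟩ := key F hF D hD N
    exact absurd (finrank_le_of_index_bound N hN A) (Nat.not_le.mpr h)

end Vale.Agent.Results.P199.GaloisCriteria
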