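import Vale.Agent.P199.Inv.FreezeMoving

/-!
Kurosh's problem for division rings: both forms are false.
-/

/-- **Kurosh's problem.** There is a division ring, algebraic over its centre, with a finite subset generating an
algebra of infinite dimension over the centre; and there are a field `k` and a division `k`-algebra, algebraic over `k`
and generated as a `k`-algebra by two elements, of infinite dimension over `k`. -/
theorem Vale.Agent.Results.P199.Kurosh.result :
    (∃ (A : Type) (_ : DivisionRing A), (∀ a : A, IsAlgebraic (Subring.center A) a) ∧
      ∃ S : Finset A, ¬ FiniteDimensional (Subring.center A)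
        (Algebra.adjoin (Subring.center A) (S : Set A))) ∧
    ∃ (k A : Type) (_ : Field k) (_ : DivisionRing A) (_ : Algebra k A) (a b : A),
      Algebra.IsAlgebraic k A ∧ Algebra.adjoin k ({a, b} : Set A) = ⊤ ∧
        ¬ FiniteDimensional k A :=
  Vale.Agent.P199.Inv.kurosh
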